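import Vale.Agent.P354CB.Ez

/-!
KS: an isometry defined near a punctured spacelike slice, with bounded first jet, extends.
-/

open scoped ContDiff
open Set Filter Topology Metric

namespace Vale.Agent.P354CB81

open Vale.Agent.P354n
open Vale.Agent.P354I (X Dat)
open Vale.Agent.P354J (PDy)
open Vale.Agent.P354XE (Tw Lor)
open Vale.Agent.P354RC
open Vale.Agent.P354XJ
open Vale.Agent.P354YC
open Vale.Agent.P354CB

theorem ev_punct {y : X} {P : X → Prop} (h : ∀ᶠ x in 𝓝[≠] y, P x) :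
    ∀ᶠ x in 𝓝[≠] y, ∀ᶠ z in 𝓝 x, z ≠ y ∧ P z := by
  filter_upwards [eventually_eventually_nhdsWithin.2 (h.and self_mem_nhdsWithin),
    self_mem_nhdsWithin] with x a b
  rw [isOpen_compl_singleton.nhdsWithin_eq b] at a
  exact a.mono fun z k => ⟨k.2, k.1⟩

theorem ev_fill {y : X} {P : X → Prop} (h : ∀ᶠ x in 𝓝[≠] y, P x) (k : P y) :
    ∀ᶠ x in 𝓝 y, P x := by
  rw [← nhdsNE_sup_pure y]
  exact eventually_sup.2 ⟨h, k⟩

theorem eq_lim {y : X} {f f' : X → ℝ} (a : ContinuousAt f y) (b : ContinuousAt f' y)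
    (h : ∀ᶠ x in 𝓝[≠] y, f x = f' x) : f y = f' y :=
  tendsto_nhds_unique_of_eventuallyEq (a.tendsto.mono_left nhdsWithin_le_nhds)
    (b.tendsto.mono_left nhdsWithin_le_nhds) h

variable {M N : Spc} {e : M.Chart}

theorem li_of {ψ : M.pt → N.pt} {p : R4} (hp : p ∈ tgt e) (h : LM ψ (inv e p)) :
    LI (M.g e) (M.X e) (fun z => ψ (inv e z)) p :=
  ⟨h.1.comp (inv_cont hp), fun e' k => by
    simpa only [co_inv hp] using iso_iff.1 (h.2 e e' (inv_mem hp) k)⟩

theorem lm_of (hM : St M) (hN : St N) {κ : R4 → N.pt} {x : M.pt} (hx : On e x)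
    (h : LI (M.g e) (M.X e) κ (co e x)) : LM (fun p => κ (co e p)) x := by
  refine ⟨h.cont.comp (co_cont hx), fun c c' a b => iso_iff.2 ?_⟩
  have m := co_mem a
  have m' : On e (inv c (co c x)) := by rwa [inv_co a]
  exact (LI.comp hN.lor (hM.lor c) (hM.lor e) m (co_mem m') ((li_inv hM.sp m).iso e m')
    (by rwa [inv_co a])).iso c' (by rwa [inv_co a])

theorem ks (hG : GU) (h1 : KS1) (h2 : KS2) : KS := by
  intro M N hM hN U ψ hU hψ e e' J y K C y0 hJ hy sp hK hK' ev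
  set F : R4 → R4 := fun z => co e' (ψ (inv e z)) with hF
  have L := hM.lor e
  have L' := hN.lor e'
  have cJ : ∀ᶠ x in 𝓝 y, J x ∈ tgt e :=
    hJ.continuous.continuousAt.eventually_mem ((isOpen_tgt e).mem_nhds hy)
  have e1 : ∀ᶠ x in 𝓝[≠] y, ∀ᶠ z in 𝓝 (J x), z ∈ tgt e ∧ inv e z ∈ U ∧ On e' (ψ (inv e z)) := by
    filter_upwards [ev, cJ.filter_mono nhdsWithin_le_nhds] with x a b
    exact ((isOpen_tgt e).eventually_mem b).and
      (((inv_cont b).eventually_mem (hU.mem_nhds a.1)).and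
        (((hψ _ a.1).1.comp (inv_cont b)).eventually (on_nhds a.2.1)))
  have e2 : ∀ᶠ x in 𝓝[≠] y, ∀ᶠ z in 𝓝 (J x), z ∈ tgt e ∧ F z ∈ tgt e' ∧
      Is (M.g e) (M.X e) (N.g e') (N.X e') F z := e1.mono fun x a => a.mono fun z b =>
    ⟨b.1, co_mem b.2.2, (li_of b.1 (hψ _ b.2.1)).iso e' b.2.2⟩
  obtain ⟨J', s', k', q'⟩ := h1 _ _ _ _ _ _ L L' J y F K C hJ hy hK hK'
    ((e2.and ev).mono fun x a => ⟨a.1, a.2.2.2⟩)
  have hy' : J' y ∈ tgt e' := hK' k'
  have e3 : ∀ᶠ x in 𝓝[≠] y, J' =ᶠ[𝓝 x] fun z => F (J z) :=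
    (ev_punct (Eventually.of_forall fun _ => trivial)).mono fun x a => a.mono fun z b => q' z b.1
  have e4 : ∀ᶠ x in 𝓝 y, ContDiffAt ℝ ∞ J' x := ev_fill ((e2.and e3).mono fun x a =>
    (a.1.self_of_nhds.2.2.1.comp x hJ.contDiffAt).congr_of_eventuallyEq a.2) s'
  obtain ⟨d, hd, I⟩ := (h2 _ _ _ L J y hy).1 (Eventually.of_forall fun _ => hJ.contDiffAt) sp
  have df : ∀ {j : X → R4}, ContDiffAt ℝ ∞ j y → ∀ u, ContinuousAt (fun x => fderiv ℝ j x u) y :=
    fun h u => (h.fderiv_right (m := ∞) (by simp)).continuousAt.clm_apply continuousAt_const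
  have sp' : ∀ u ≠ 0, 0 < N.g e' (J' y) (fderiv ℝ J' y u) (fderiv ℝ J' y u) := fun u u0 => by
    refine (sp u u0).trans_eq (eq_lim
      (g_cont hM.sp hy hJ.continuous.continuousAt (df hJ.contDiffAt u) (df hJ.contDiffAt u))
      (g_cont hN.sp hy' s'.continuousAt (df s' u) (df s' u)) ?_)
    filter_upwards [e2, e3] with x a b
    have i := a.self_of_nhds.2.2
    rw [b.fderiv_eq, b.self_of_nhds, fderiv_fun_comp x (at_df i.1)
      (hJ.contDiffAt.differentiableAt (by simp))]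
    exact i.2.1 _ _
  obtain ⟨d', hd', I'⟩ := (h2 _ _ _ L' J' y hy').1 e4 sp'
  have n0 : ∀ᶠ x in 𝓝 y, x ≠ 0 := nz y0
  have cJ' : ∀ᶠ x in 𝓝 y, J' x ∈ tgt e' :=
    s'.continuousAt.eventually_mem ((isOpen_tgt e').mem_nhds hy')
  have e5 : ∀ᶠ x in 𝓝[≠] y, IndAt (N.g e') (N.X e') J' d x := by
    filter_upwards [e2, e3, I.filter_mono nhdsWithin_le_nhds] with x a b c
    obtain ⟨W, W1, W2, W3⟩ := _root_.eventually_nhds_iff.1 a
    exact IndAt.pull L L' (pull_of L L' W2 W1) (W1 _ W3).1 W3 (W1 _ W3).2.2.2.2 hJ.contDiffAt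
      b.symm c
  have e6 : ∀ᶠ x in 𝓝[≠] y, d.h x = d'.h x ∧ d.K x = d'.K x := by
    filter_upwards [e5, (I'.and (n0.and cJ')).filter_mono nhdsWithin_le_nhds] with x a b
    exact (h2 _ _ _ L' J' x b.2.2).2 d d' (hd.2 x b.2.1).1 a b.1
  have a1 : d.h y = d'.h y := Matrix.ext fun i j => eq_lim
    ((hd.1 i j).1.continuousOn.continuousAt (nz y0))
    ((hd'.1 i j).1.continuousOn.continuousAt (nz y0)) (e6.mono fun x a => by rw [a.1])
  have a2 : d.K y = d'.K y := Matrix.ext fun i j => eq_lim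
    ((hd.1 i j).2.continuousOn.continuousAt (nz y0))
    ((hd'.1 i j).2.continuousOn.continuousAt (nz y0)) (e6.mono fun x a => by rw [a.2])
  have e7 : ∀ᶠ x in 𝓝 y, IndAt (N.g e') (N.X e') J' d x := ev_fill e5 (by
    have := I'.self_of_nhds
    rwa [IndAt, ← a1, ← a2] at this)
  obtain ⟨O, O1, O2, O3⟩ := _root_.eventually_nhds_iff.1
    (n0.and (e4.and (cJ.and (cJ'.and (I.and e7)))))
  obtain ⟨W, χ, b1, b2, P, o, b3⟩ := hG _ _ _ _ _ _ J J' d O L L' hd O2 (fun z k => (O1 z k).1)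
    hJ.contDiffOn (fun z k => (O1 z k).2.1.contDiffWithinAt) (fun z k => (O1 z k).2.2.1)
    (fun z k => (O1 z k).2.2.2.1) (fun z k => (O1 z k).2.2.2.2) y O3
  rw [← b3.self_of_nhds] at o
  have s := p_at P b1
  have c := g_cont hN.sp (p := χ) (a := fun p => fderiv ℝ χ p (M.X e p))
    (b := fun p => N.X e' (χ p)) (P.maps b1) s.continuousAt ((at_fd s).continuousAt.clm_apply
      (L.cont.continuousAt (L.isOpen.mem_nhds hy)))
    ((L'.cont.continuousAt (L'.isOpen.mem_nhds (P.maps b1))).comp s.continuousAt)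
  have li : ∀ᶠ p in 𝓝 (J y), p ∈ tgt e ∧ LI (M.g e) (M.X e) (fun p => inv e' (χ p)) p := by
    filter_upwards [P.open'.mem_nhds b1, c.eventually (gt_mem_nhds o)] with p k1 k2
    exact ⟨b2 k1, .comp hN.lor L L' (b2 k1) (P.maps k1) ⟨p_at P k1, P.eq p k1, k2⟩
      (li_inv hN.sp (P.maps k1))⟩
  refine ⟨fun p => inv e' (χ (co e p)), ?_, ?_⟩
  · have m := inv_mem hy
    have t := co_cont m
    rw [ContinuousAt, co_inv hy] at t
    filter_upwards [on_nhds m, t.eventually li] with p k1 k2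
    exact lm_of hM hN k1 k2.2
  · filter_upwards [e1, ev_punct ev, ((hJ.continuous.continuousAt.eventually
      li.eventually_nhds).and (b3.eventually_nhds.and (n0.and I))).filter_mono
        nhdsWithin_le_nhds] with x k1 k2 k3
    have m := k1.self_of_nhds.1
    obtain ⟨n, n1, n2, T⟩ := IndAt.sp L m (hd.2 x k3.2.2.1).1 k3.2.2.2
    have j := jetM (κ := fun p => inv e' (χ p)) (κ' := fun z => ψ (inv e z)) hN.lor L
      (hJ.contDiffAt.differentiableAt (by simp)) T n1 n2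
      ((k3.1.and k1).mono fun p a => ⟨a.1.1, a.1.2, li_of a.2.1 (hψ _ a.2.2.1)⟩)
      ((k2.and k3.2.1).mono fun z a => by
        show inv e' (χ (J z)) = ψ (inv e (J z))
        rw [a.2, q' z a.1.1, inv_co a.1.2.2.1])
    have t := co_cont (inv_mem m)
    rw [ContinuousAt, co_inv m] at t
    filter_upwards [on_nhds (inv_mem m), t.eventually j] with p a b
    rw [b, inv_co a]

end Vale.Agent.P354CB81
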